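import Mathlib

/-! # P028: overlaps and equidistribution of the sets `‖q x - γ‖ < t` -/

open MeasureTheory Set Metric
open scoped ENNReal

namespace Vale.P028

/-- `{x : ‖q x - γ‖ < t}`. -/
def Hit (q : ℕ) (γ t : ℝ) : Set ℝ := {x | ∃ a : ℤ, |(q:ℝ) * x - a - γ| < t}

theorem isOpen_hit (q : ℕ) (γ t : ℝ) : IsOpen (Hit q γ t) := by
  have : Hit q γ t = ⋃ a : ℤ, {x : ℝ | |(q:ℝ) * x - a - γ| < t} := by
    ext x; simp [Hit]
  rw [this]
  exact isOpen_iUnion fun a => isOpen_lt (by fun_prop) continuous_const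

theorem measurableSet_hit (q : ℕ) (γ t : ℝ) : MeasurableSet (Hit q γ t) :=
  (isOpen_hit q γ t).measurableSet

theorem card_spaced {s : Finset ℤ} {u l : ℝ} {d : ℕ} (hd : 0 < d) (hl : 0 ≤ l)
    (hmem : ∀ a ∈ s, u < (a:ℝ) ∧ (a:ℝ) < u + l)
    (hdiff : ∀ a ∈ s, ∀ b ∈ s, (d:ℤ) ∣ a - b) :
    (s.card : ℝ) ≤ l / d + 1 := by
  classical
  rcases s.eq_empty_or_nonempty with h | h
  · subst h; simp; positivity
  set m := s.min' h with hm
  have hmm : m ∈ s := s.min'_mem h
  have hdR : (0:ℝ) < d := by exact_mod_cast hd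
  set N : ℕ := ⌊l / d⌋₊ with hN
  have hsub : s ⊆ (Finset.range (N + 1)).image (fun i : ℕ => m + (d:ℤ) * i) := by
    intro a ha
    obtain ⟨c, hc⟩ := hdiff a ha m hmm
    have hma : m ≤ a := s.min'_le a ha
    have hdZ : (0:ℤ) < d := by exact_mod_cast hd
    have hc0 : 0 ≤ c := by nlinarith
    obtain ⟨i, rfl⟩ := Int.eq_ofNat_of_zero_le hc0
    refine Finset.mem_image.mpr ⟨i, Finset.mem_range.mpr (Nat.lt_succ_of_le (Nat.le_floor ?_)), by omega⟩
    rw [le_div_iff₀ hdR]
    have e : (a:ℝ) - m = (d:ℝ) * i := by exact_mod_cast hc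
    have h1 := hmem a ha
    have h2 := hmem m hmm
    linarith
  have h1 := Finset.card_le_card hsub
  have h2 := (Finset.card_image_le (s := Finset.range (N+1)) (f := fun i : ℕ => m + (d:ℤ) * i))
  simp only [Finset.card_range] at h2
  have h3 : (s.card:ℝ) ≤ N + 1 := by exact_mod_cast h1.trans h2
  have h4 : (N:ℝ) ≤ l / d := Nat.floor_le (by positivity)
  linarith

/-- Quasi-independence of two of the sets on a period. -/
theorem pair_le {q r : ℕ} (hq : 0 < q) (hr : 0 < r) {γ δ t u : ℝ} (ht : 0 ≤ t) (ht' : t ≤ 1/2)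
    (hu : 0 ≤ u) (hu' : u ≤ 1/2) :
    volume.real (Hit q γ t ∩ Hit r δ u ∩ Ico 0 1)
      ≤ 32 * t * u + 8 * (Nat.gcd q r : ℝ) * t / q := by
  classical
  set g := Nat.gcd q r with hg
  have hgpos : 0 < g := Nat.gcd_pos_of_pos_left r hq
  obtain ⟨q', hq'⟩ : g ∣ q := Nat.gcd_dvd_left q r
  obtain ⟨r', hr'⟩ : g ∣ r := Nat.gcd_dvd_right q r
  have hq'pos : 0 < q' := by
    rcases Nat.eq_zero_or_pos q' with h | h
    · subst h; simp at hq'; omega
    · exact h
  have hcop : Nat.Coprime q' r' := by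
    have : g * Nat.gcd q' r' = g * 1 := by
      rw [← Nat.gcd_mul_left, ← hq', ← hr', mul_one]
    exact Nat.eq_of_mul_eq_mul_left hgpos this
  have hqR : (0:ℝ) < q := by exact_mod_cast hq
  have hrR : (0:ℝ) < r := by exact_mod_cast hr
  have hgR : (0:ℝ) < g := by exact_mod_cast hgpos
  set D : ℝ := r * t + q * u with hD
  have hD0 : 0 ≤ D := by positivity
  set sh : ℝ := r * γ - q * δ with hsh
  set P : Finset (ℤ × ℤ) :=
    ((Finset.Icc (⌈-γ - 1⌉) (⌊(q:ℝ) - γ + 1⌋)) ×ˢ
      (Finset.Icc (⌈-δ - 1⌉) (⌊(r:ℝ) - δ + 1⌋))).filter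
      (fun p => -γ - 1 < (p.1:ℝ) ∧ (p.1:ℝ) < -γ - 1 + ((q:ℝ) + 2) ∧
        |(p.1:ℝ) * r - p.2 * q + sh| < D) with hP
  set B : ℤ × ℤ → Set ℝ :=
    fun p => ball (((p.1:ℝ) + γ) / q) (t / q) ∩ ball (((p.2:ℝ) + δ) / r) (u / r) with hB
  have hcover : Hit q γ t ∩ Hit r δ u ∩ Ico 0 1 ⊆ ⋃ p ∈ P, B p := by
    rintro x ⟨⟨⟨a, ha⟩, b, hb⟩, hx0, hx1⟩
    have ha' := abs_lt.mp ha
    have hb' := abs_lt.mp hb
    have q0 : 0 ≤ (q:ℝ) * x := by positivity
    have q1 : (q:ℝ) * x ≤ q := by nlinarith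
    have r0 : 0 ≤ (r:ℝ) * x := by positivity
    have r1 : (r:ℝ) * x ≤ r := by nlinarith
    refine mem_biUnion (x := (a, b)) ?_ ⟨?_, ?_⟩
    · simp only [hP, Finset.mem_coe, Finset.mem_filter, Finset.mem_product, Finset.mem_Icc,
        Int.ceil_le, Int.le_floor]
      refine ⟨⟨⟨by linarith, by linarith⟩, by linarith, by linarith⟩, by linarith, by linarith, ?_⟩
      rw [abs_lt, hsh, hD]
      constructor <;> nlinarith [mul_lt_mul_of_pos_left ha'.1 hrR, mul_lt_mul_of_pos_left ha'.2 hrR,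
        mul_lt_mul_of_pos_left hb'.1 hqR, mul_lt_mul_of_pos_left hb'.2 hqR]
    · rw [mem_ball, Real.dist_eq]
      rw [show x - ((a:ℝ) + γ) / q = ((q:ℝ) * x - a - γ) / q by field_simp; ring, abs_div,
        abs_of_pos hqR]
      gcongr
    · rw [mem_ball, Real.dist_eq]
      rw [show x - ((b:ℝ) + δ) / r = ((r:ℝ) * x - b - δ) / r by field_simp; ring, abs_div,
        abs_of_pos hrR]
      gcongr
  set mn := min (t / q) (u / r) with hmn
  have hmn0 : 0 ≤ mn := le_min (by positivity) (by positivity)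
  have hBle : ∀ p, volume.real (B p) ≤ 2 * mn := by
    intro p
    have l1 : volume.real (B p) ≤ volume.real (ball (((p.1:ℝ) + γ) / q) (t / q)) :=
      measureReal_mono inter_subset_left measure_ball_lt_top.ne
    have l2 : volume.real (B p) ≤ volume.real (ball (((p.2:ℝ) + δ) / r) (u / r)) :=
      measureReal_mono inter_subset_right measure_ball_lt_top.ne
    rw [measureReal_def (s := ball _ _), Real.volume_ball,
      ENNReal.toReal_ofReal (by positivity)] at l1 l2
    rw [hmn]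
    rcases min_choice (t / q) (u / r) with h | h <;> rw [h] <;> assumption
  -- counting
  set f : ℤ × ℤ → ℤ := fun p => p.1 * r' - p.2 * q' with hf
  have hfib : ∀ m ∈ P.image f, ((P.filter fun p => f p = m).card : ℝ) ≤ 4 * g := by
    intro m _
    set F := P.filter fun p => f p = m with hF
    have hinj : Set.InjOn Prod.fst (F : Set (ℤ × ℤ)) := by
      intro p hp p' hp' h
      have e1 : f p = m := (Finset.mem_filter.mp hp).2
      have e2 : f p' = m := (Finset.mem_filter.mp hp').2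
      simp only [hf] at e1 e2
      have e3 : p.2 * (q':ℤ) = p'.2 * q' := by rw [h] at e1; linarith
      exact Prod.ext h (mul_right_cancel₀ (by exact_mod_cast hq'pos.ne') e3)
    rw [← Finset.card_image_of_injOn hinj]
    refine (card_spaced (u := -γ - 1) (l := (q:ℝ) + 2) hq'pos (by positivity) ?_ ?_).trans ?_
    · intro a ha
      obtain ⟨p, hp, rfl⟩ := Finset.mem_image.mp ha
      have := (Finset.mem_filter.mp (Finset.mem_filter.mp hp).1).2
      exact ⟨this.1, this.2.1⟩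
    · intro a ha a' ha'
      obtain ⟨p, hp, rfl⟩ := Finset.mem_image.mp ha
      obtain ⟨p', hp', rfl⟩ := Finset.mem_image.mp ha'
      have e1 : f p = m := (Finset.mem_filter.mp hp).2
      have e2 : f p' = m := (Finset.mem_filter.mp hp').2
      simp only [hf] at e1 e2
      have : (q':ℤ) ∣ (p.1 - p'.1) * r' := ⟨p.2 - p'.2, by linear_combination e1 - e2⟩
      exact (Int.isCoprime_iff_nat_coprime.mpr (by simpa using hcop)).dvd_of_dvd_mul_right this
    · have hq'1 : (1:ℝ) ≤ q' := by exact_mod_cast hq'pos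
      have hg1 : (1:ℝ) ≤ g := by exact_mod_cast hgpos
      rw [hq', Nat.cast_mul, add_div, mul_div_assoc, div_self (by positivity)]
      have : (2:ℝ) / q' ≤ 2 := div_le_self (by norm_num) hq'1
      linarith
  have himg : ((P.image f).card : ℝ) ≤ 2 * D / g + 1 := by
    refine (card_spaced (u := -sh / g - D / g) (l := 2 * D / g) one_pos (by positivity) ?_
      (fun a _ b _ => by simp)).trans (by simp)
    intro m hm
    obtain ⟨p, hp, rfl⟩ := Finset.mem_image.mp hm
    have h3 := abs_lt.mp (Finset.mem_filter.mp hp).2.2.2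
    have e : (f p : ℝ) = ((p.1:ℝ) * r - p.2 * q) / g := by
      rw [hq', hr', hf]; push_cast; field_simp
    rw [e]
    constructor
    · rw [← sub_pos]
      have : 0 < ((p.1:ℝ) * r - p.2 * q + sh + D) / g := div_pos (by linarith) hgR
      calc (0:ℝ) < _ := this
        _ = _ := by field_simp; ring
    · rw [← sub_pos]
      have : 0 < (D - ((p.1:ℝ) * r - p.2 * q + sh)) / g := div_pos (by linarith) hgR
      calc (0:ℝ) < _ := this
        _ = _ := by field_simp; ring
  have hcard : (P.card : ℝ) ≤ (2 * D / g + 1) * (4 * g) := by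
    rw [Finset.card_eq_sum_card_image f P, Nat.cast_sum]
    calc (∑ m ∈ P.image f, ((P.filter fun p => f p = m).card : ℝ))
        ≤ ∑ m ∈ P.image f, 4 * (g:ℝ) := Finset.sum_le_sum hfib
      _ = (P.image f).card * (4 * (g:ℝ)) := by rw [Finset.sum_const, nsmul_eq_mul]
      _ ≤ _ := mul_le_mul_of_nonneg_right himg (by positivity)
  have h1 : volume.real (Hit q γ t ∩ Hit r δ u ∩ Ico 0 1) ≤ P.card * (2 * mn) := by
    have hfin : volume (⋃ p ∈ P, B p) ≠ ∞ := by
      refine ne_top_of_le_ne_top ?_ (measure_biUnion_finset_le P B)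
      refine ENNReal.sum_ne_top.mpr fun p _ => ne_top_of_le_ne_top ?_ (measure_mono inter_subset_left)
      exact measure_ball_lt_top.ne
    calc _ ≤ volume.real (⋃ p ∈ P, B p) := measureReal_mono hcover hfin
      _ ≤ ∑ p ∈ P, volume.real (B p) := measureReal_biUnion_finset_le P B
      _ ≤ ∑ p ∈ P, 2 * mn := Finset.sum_le_sum fun p _ => hBle p
      _ = _ := by rw [Finset.sum_const, nsmul_eq_mul]
  have m1 : mn ≤ t / q := min_le_left _ _
  have m2 : mn ≤ u / r := min_le_right _ _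
  have d1 : D * mn ≤ 2 * t * u := by
    have a1 : (r:ℝ) * t * mn ≤ r * t * (u / r) := mul_le_mul_of_nonneg_left m2 (by positivity)
    have a2 : (q:ℝ) * u * mn ≤ q * u * (t / q) := mul_le_mul_of_nonneg_left m1 (by positivity)
    have b1 : (r:ℝ) * t * (u / r) = t * u := by field_simp
    have b2 : (q:ℝ) * u * (t / q) = t * u := by field_simp
    rw [hD]; linarith
  calc _ ≤ (P.card:ℝ) * (2 * mn) := h1
    _ ≤ (2 * D / g + 1) * (4 * g) * (2 * mn) := mul_le_mul_of_nonneg_right hcard (by positivity)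
    _ = 16 * (D * mn) + 8 * g * mn := by field_simp; ring
    _ ≤ 16 * (2 * t * u) + 8 * g * (t / q) := by gcongr
    _ = _ := by ring

/-- Each set is equidistributed in intervals, from below. -/
theorem cell_lower {q : ℕ} (hq : 0 < q) {γ t : ℝ} (ht : 0 ≤ t) (ht' : t ≤ 1/2) (u v : ℝ) :
    2 * t * (v - u) - 4 * t / q ≤ volume.real (Hit q γ t ∩ Ico u v) := by
  classical
  have hqR : (0:ℝ) < q := by exact_mod_cast hq
  set S : Finset ℤ := Finset.Icc ⌈(q:ℝ) * u - γ + t⌉ ⌊(q:ℝ) * v - γ - t⌋ with hS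
  set B : ℤ → Set ℝ := fun a => ball (((a:ℝ) + γ) / q) (t / q) with hB
  have hsub : (⋃ a ∈ S, B a) ⊆ Hit q γ t ∩ Ico u v := by
    intro x hx
    simp only [mem_iUnion₂, hB, mem_ball, Real.dist_eq] at hx
    obtain ⟨a, ha, hx⟩ := hx
    simp only [hS, Finset.mem_Icc, Int.ceil_le, Int.le_floor] at ha
    have e : x - ((a:ℝ) + γ) / q = ((q:ℝ) * x - a - γ) / q := by field_simp; ring
    rw [e, abs_div, abs_of_pos hqR, div_lt_div_iff_of_pos_right hqR] at hx
    refine ⟨⟨a, hx⟩, ?_, ?_⟩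
    · have := (abs_lt.mp hx).1; exact le_of_mul_le_mul_left (by linarith) hqR
    · have := (abs_lt.mp hx).2; exact lt_of_mul_lt_mul_left (by linarith) hqR.le
  have hdisj : (S : Set ℤ).PairwiseDisjoint B := by
    intro a _ b _ hab
    refine ball_disjoint_ball ?_
    rw [Real.dist_eq, ← sub_div, ← add_div, abs_div, abs_of_pos hqR]
    gcongr
    have : (1:ℝ) ≤ |(a:ℝ) - b| := by exact_mod_cast Int.one_le_abs (sub_ne_zero.mpr hab)
    rw [show (a:ℝ) + γ - (b + γ) = a - b by ring]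
    linarith
  have hfin : volume (Hit q γ t ∩ Ico u v) ≠ ∞ :=
    ne_top_of_le_ne_top (by simp [Real.volume_Ico]) (measure_mono inter_subset_right)
  have h1 : (S.card:ℝ) * (2 * (t / q)) ≤ volume.real (Hit q γ t ∩ Ico u v) := by
    refine le_trans ?_ (measureReal_mono hsub hfin)
    rw [measureReal_biUnion_finset hdisj (fun a _ => measurableSet_ball)
      (fun a _ => measure_ball_lt_top.ne)]
    simp only [hB, measureReal_def, Real.volume_ball]
    rw [Finset.sum_const, nsmul_eq_mul, ENNReal.toReal_ofReal (by positivity)]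
  have h2 : (q:ℝ) * (v - u) - 2 ≤ S.card := by
    rw [hS, Int.card_Icc]
    have a1 := Int.ceil_lt_add_one ((q:ℝ) * u - γ + t)
    have a2 := Int.sub_one_lt_floor ((q:ℝ) * v - γ - t)
    set z : ℤ := ⌊(q:ℝ) * v - γ - t⌋ + 1 - ⌈(q:ℝ) * u - γ + t⌉ with hz
    have : (z:ℝ) ≤ (z.toNat : ℝ) := by exact_mod_cast Int.self_le_toNat z
    have ez : (z:ℝ) = ⌊(q:ℝ) * v - γ - t⌋ + 1 - ⌈(q:ℝ) * u - γ + t⌉ := by rw [hz]; push_cast; rfl
    linarith
  calc 2 * t * (v - u) - 4 * t / q = ((q:ℝ) * (v - u) - 2) * (2 * (t / q)) := by field_simp; ring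
    _ ≤ (S.card:ℝ) * (2 * (t / q)) := mul_le_mul_of_nonneg_right h2 (by positivity)
    _ ≤ _ := h1

/-- `∑_{r=1}^q gcd(q,r) ≤ τ(q) q`. -/
theorem sum_gcd_le (q : ℕ) : ∑ r ∈ Finset.Icc 1 q, Nat.gcd q r ≤ q.divisors.card * q := by
  classical
  rcases Nat.eq_zero_or_pos q with h | hq
  · subst h; simp
  rw [← Finset.sum_fiberwise_of_maps_to (g := fun r => Nat.gcd q r) (t := q.divisors)
    (fun r _ => Nat.mem_divisors.mpr ⟨Nat.gcd_dvd_left q r, hq.ne'⟩)]
  calc ∑ d ∈ q.divisors, ∑ r ∈ (Finset.Icc 1 q).filter (fun r => Nat.gcd q r = d), Nat.gcd q r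
      ≤ ∑ _d ∈ q.divisors, q := Finset.sum_le_sum fun d hd => by
        have hdq := (Nat.mem_divisors.mp hd).1
        rw [Finset.sum_congr rfl (fun r hr => (Finset.mem_filter.mp hr).2), Finset.sum_const,
          smul_eq_mul]
        have hsub : (Finset.Icc 1 q).filter (fun r => Nat.gcd q r = d) ⊆
            (Finset.Icc 1 (q / d)).image (fun i => d * i) := by
          intro r hr
          obtain ⟨hr1, hr2⟩ := Finset.mem_filter.mp hr
          have hr' := Finset.mem_Icc.mp hr1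
          obtain ⟨i, rfl⟩ : d ∣ r := hr2 ▸ Nat.gcd_dvd_right q r
          have hi : 0 < i := Nat.pos_of_ne_zero (by rintro rfl; simp at hr')
          refine Finset.mem_image.mpr ⟨i, Finset.mem_Icc.mpr ⟨hi, ?_⟩, rfl⟩
          rw [Nat.le_div_iff_mul_le (Nat.pos_of_dvd_of_pos hdq hq)]
          rw [mul_comm]; exact hr'.2
        have := (Finset.card_le_card hsub).trans Finset.card_image_le
        simp only [Nat.card_Icc, Nat.add_sub_cancel] at this
        exact (Nat.mul_le_mul_right d this).trans (Nat.div_mul_le_self q d)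
    _ = _ := by rw [Finset.sum_const, smul_eq_mul]

end Vale.P028
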