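import Vale.Agent.P028.Pair

/-! # P028: full measure from divisor-weighted divergence -/

open MeasureTheory Set Metric Filter Topology
open scoped ENNReal

namespace Vale.P028

/-- Blocks on which the divisor-weighted sum is at most the square of the sum. -/
theorem exists_block {ψ : ℕ → ℝ} (hψ : ∀ q, 0 ≤ ψ q)
    (hdiv : ¬ Summable fun q : ℕ =>
      ψ q / ((q.divisors.card : ℝ) * (1 + Real.log q.divisors.card) ^ 2))
    (Q : ℕ) : ∃ S : Finset ℕ, (∀ q ∈ S, Q ≤ q) ∧ 0 < ∑ q ∈ S, ψ q ∧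
      ∑ q ∈ S, (q.divisors.card : ℝ) * ψ q ≤ (∑ q ∈ S, ψ q) ^ 2 := by
  classical
  by_contra hno
  push Not at hno
  apply hdiv
  set w : ℕ → ℝ := fun q => ψ q / ((q.divisors.card : ℝ) * (1 + Real.log q.divisors.card) ^ 2)
    with hw
  have hw0 : ∀ q, 0 ≤ w q := fun q => by
    have := hψ q; rw [hw]; positivity
  set c : ℕ → ℝ := fun k => (2 / Real.log 2 ^ 2) * (1 / ((k:ℝ) + 1) ^ 2) with hc
  have hc0 : ∀ k, 0 ≤ c k := fun k => by rw [hc]; positivity
  have hcs : Summable c := by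
    refine Summable.mul_left _ ?_
    have := (Real.summable_one_div_nat_pow.mpr one_lt_two).comp_injective Nat.succ_injective
    refine this.congr fun k => ?_
    simp [Function.comp]
  set Q1 := max Q 1 with hQ1
  rw [← summable_nat_add_iff Q1]
  refine summable_of_sum_le (c := ∑' k, c k) (fun q => hw0 _) fun u => ?_
  set F : Finset ℕ := u.image (fun q => q + Q1) with hF
  have e : ∑ q ∈ u, w (q + Q1) = ∑ q ∈ F, w q :=
    (Finset.sum_image (fun a _ b _ h => Nat.add_right_cancel h)).symm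
  rw [e]
  set cl : ℕ → ℕ := fun q => Nat.log 2 q.divisors.card with hcl
  rw [← Finset.sum_fiberwise_of_maps_to (g := cl) (t := F.image cl)
    (fun q hq => Finset.mem_image_of_mem cl hq)]
  refine le_trans (Finset.sum_le_sum fun k _ => ?_) (hcs.sum_le_tsum _ fun k _ => hc0 k)
  set S := F.filter (fun q => cl q = k) with hS
  have hQS : ∀ q ∈ S, Q ≤ q ∧ 1 ≤ q := by
    intro q hq
    obtain ⟨a, -, rfl⟩ := Finset.mem_image.mp (Finset.mem_filter.mp hq).1
    omega
  have hτ : ∀ q ∈ S, (2:ℝ) ^ k ≤ (q.divisors.card : ℝ) ∧ (q.divisors.card : ℝ) ≤ 2 ^ (k + 1) := by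
    intro q hq
    have hpos : q.divisors.card ≠ 0 := by
      have : 1 ∈ q.divisors := Nat.one_mem_divisors.mpr (by have := hQS q hq; omega)
      exact Finset.card_ne_zero_of_mem this
    have hk : Nat.log 2 q.divisors.card = k := (Finset.mem_filter.mp hq).2
    constructor
    · exact_mod_cast hk ▸ Nat.pow_log_le_self 2 hpos
    · exact_mod_cast (hk ▸ Nat.lt_pow_succ_log_self one_lt_two q.divisors.card).le
  set s := ∑ q ∈ S, ψ q with hs
  have hs0 : 0 ≤ s := Finset.sum_nonneg fun q _ => hψ q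
  have hsum : ∑ q ∈ S, (q.divisors.card : ℝ) * ψ q ≤ 2 ^ (k + 1) * s := by
    rw [hs, Finset.mul_sum]
    exact Finset.sum_le_sum fun q hq => mul_le_mul_of_nonneg_right (hτ q hq).2 (hψ q)
  have hsk : s ≤ 2 ^ (k + 1) := by
    rcases hs0.eq_or_lt with h | h
    · rw [← h]; positivity
    have h1 := hno S (fun q hq => (hQS q hq).1) h
    nlinarith
  have hl2 : 0 < Real.log 2 := Real.log_pos one_lt_two
  calc ∑ q ∈ S, w q ≤ ∑ q ∈ S, ψ q / (2 ^ k * (Real.log 2 * ((k:ℝ) + 1)) ^ 2) := by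
        refine Finset.sum_le_sum fun q hq => ?_
        refine div_le_div_of_nonneg_left (hψ q) (by positivity) ?_
        have h1 := (hτ q hq).1
        have h2 : (k:ℝ) * Real.log 2 ≤ Real.log q.divisors.card := by
          rw [← Real.log_pow]; exact Real.log_le_log (by positivity) h1
        have h3 : Real.log 2 < 1 := lt_of_lt_of_le Real.log_two_lt_d9 (by norm_num)
        gcongr
        nlinarith
    _ = s / (2 ^ k * (Real.log 2 * ((k:ℝ) + 1)) ^ 2) := by rw [hs, Finset.sum_div]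
    _ ≤ 2 ^ (k + 1) / (2 ^ k * (Real.log 2 * ((k:ℝ) + 1)) ^ 2) := by gcongr
    _ = c k := by rw [hc, pow_succ]; field_simp

/-- The compact set of points of the period never hit after `M`. -/
def Miss (ψ γ : ℕ → ℝ) (M : ℕ) : Set ℝ :=
  {x | x ∈ Icc (0:ℝ) 1 ∧ ∀ q, M ≤ q → x ∉ Hit q (γ q) (ψ q)}

theorem isCompact_miss (ψ γ : ℕ → ℝ) (M : ℕ) : IsCompact (Miss ψ γ M) := by
  have h : Miss ψ γ M = Icc (0:ℝ) 1 ∩ ⋂ q, ⋂ (_ : M ≤ q), (Hit q (γ q) (ψ q))ᶜ := by
    ext x; simp [Miss]
  rw [h]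
  exact isCompact_Icc.inter_right (isClosed_iInter fun q => isClosed_iInter fun _ =>
    (isOpen_hit _ _ _).isClosed_compl)

theorem pointwise_bound (n c : ℝ) (hc : 0 < c) : n ≤ c + n ^ 2 / c := by
  have : n * c ≤ c * c + n ^ 2 := by nlinarith [sq_nonneg (n - c / 2)]
  rw [← sub_le_iff_le_add', le_div_iff₀ hc]
  nlinarith

theorem volume_miss (ψ γ : ℕ → ℝ) (hψ : ∀ q, 0 ≤ ψ q) (Q0 : ℕ) (hhalf : ∀ q, Q0 ≤ q → ψ q ≤ 1/2)
    (hblock : ∀ Q : ℕ, ∃ S : Finset ℕ, (∀ q ∈ S, Q ≤ q) ∧ 0 < ∑ q ∈ S, ψ q ∧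
      ∑ q ∈ S, (q.divisors.card : ℝ) * ψ q ≤ (∑ q ∈ S, ψ q) ^ 2)
    (M : ℕ) : volume (Miss ψ γ M) = 0 := by
  classical
  set K := Miss ψ γ M with hK
  have hKc : IsCompact K := isCompact_miss ψ γ M
  have hKfin : volume K ≠ ∞ := hKc.measure_lt_top.ne
  by_contra hne
  set κ := volume.real K with hκ
  have hκ0 : 0 < κ := ENNReal.toReal_pos hne hKfin
  -- a small thickening
  have ht : Tendsto (fun r => volume (cthickening r K)) (𝓝 0) (𝓝 (volume K)) :=
    tendsto_measure_cthickening_of_isCompact hKc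
  set lam : ℝ := 96 / κ with hlam
  have hlam0 : 0 < lam := by positivity
  set ε : ℝ := κ / (2 * lam) with hε
  have hε0 : 0 < ε := by positivity
  have hev : ∀ᶠ r in 𝓝 (0:ℝ), volume (cthickening r K) < volume K + ENNReal.ofReal ε :=
    ht.eventually (eventually_lt_nhds (ENNReal.lt_add_right hKfin (by simpa using hε0)))
  obtain ⟨η, hη0, hη⟩ := Metric.eventually_nhds_iff.mp hev
  obtain ⟨N, hN⟩ := exists_nat_gt (2 / η)
  have hN0 : 0 < N := by
    by_contra h
    have : N = 0 := by omega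
    subst this
    have : 0 < 2 / η := by positivity
    simp at hN; linarith
  have hNR : (0:ℝ) < N := by exact_mod_cast hN0
  have hrad : volume (cthickening (1 / (N:ℝ)) K) < volume K + ENNReal.ofReal ε := by
    refine hη ?_
    rw [Real.dist_eq, sub_zero, abs_of_pos (by positivity), div_lt_iff₀ hNR]
    rw [div_lt_iff₀ hη0] at hN
    linarith
  set cell : ℕ → Set ℝ := fun j => Ico ((j:ℝ) / N) (((j:ℝ) + 1) / N) with hcell
  set J : Finset ℕ := (Finset.range N).filter (fun j => (cell j ∩ K).Nonempty) with hJ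
  set U : Set ℝ := ⋃ j ∈ J, cell j with hU
  have hUI : U ⊆ Ico 0 1 := by
    intro x hx
    simp only [hU, mem_iUnion₂] at hx
    obtain ⟨j, hj, h1, h2⟩ := hx
    have hjN : (j:ℝ) + 1 ≤ N := by
      exact_mod_cast Finset.mem_range.mp (Finset.mem_filter.mp hj).1
    refine ⟨le_trans (by positivity) h1, lt_of_lt_of_le h2 ?_⟩
    rw [div_le_one hNR]; exact hjN
  have hKU : K ∩ Ico 0 1 ⊆ U := by
    rintro x ⟨hxK, hx0, hx1⟩
    have h0 : 0 ≤ (N:ℝ) * x := by positivity
    have hl : ⌊(N:ℝ) * x⌋₊ < N := by rw [Nat.floor_lt h0]; nlinarith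
    have hxc : x ∈ cell ⌊(N:ℝ) * x⌋₊ := by
      refine ⟨?_, ?_⟩
      · rw [div_le_iff₀ hNR]; linarith [Nat.floor_le h0]
      · rw [lt_div_iff₀ hNR]; linarith [Nat.lt_floor_add_one ((N:ℝ) * x)]
    exact mem_biUnion (x := ⌊(N:ℝ) * x⌋₊)
      (Finset.mem_filter.mpr ⟨Finset.mem_range.mpr hl, x, hxc, hxK⟩) hxc
  have hUth : U ⊆ cthickening (1 / (N:ℝ)) K := by
    intro x hx
    simp only [hU, mem_iUnion₂] at hx
    obtain ⟨j, hj, h1, h2⟩ := hx
    obtain ⟨y, ⟨y1, y2⟩, hyK⟩ := (Finset.mem_filter.mp hj).2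
    refine mem_cthickening_of_dist_le x y _ K hyK ?_
    rw [Real.dist_eq, abs_le]
    have e : ((j:ℝ) + 1) / N = (j:ℝ) / N + 1 / N := by ring
    constructor <;> linarith
  have hUm : MeasurableSet U := Finset.measurableSet_biUnion _ fun j _ => measurableSet_Ico
  have hKm : MeasurableSet K := hKc.isClosed.measurableSet
  set E : Set ℝ := U \ K with hE
  have hEm : MeasurableSet E := hUm.diff hKm
  have hfinU : volume U ≠ ∞ := ne_top_of_le_ne_top (by simp [Real.volume_Ico]) (measure_mono hUI)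
  have hUge : κ ≤ volume.real U := by
    have h1 : K ⊆ U ∪ {1} := by
      intro x hx
      rcases eq_or_ne x 1 with h | h
      · exact Or.inr h
      · exact Or.inl (hKU ⟨hx, hx.1.1, lt_of_le_of_ne hx.1.2 h⟩)
    have h2 : volume K ≤ volume U := by
      calc volume K ≤ volume (U ∪ {1}) := measure_mono h1
        _ ≤ volume U + volume ({1} : Set ℝ) := measure_union_le _ _
        _ = volume U := by simp
    exact ENNReal.toReal_mono hfinU h2
  have hEle : volume.real E ≤ ε := by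
    have hsub : E ⊆ cthickening (1 / (N:ℝ)) K \ K := diff_subset_diff_left hUth
    have hfin : volume (cthickening (1 / (N:ℝ)) K) ≠ ∞ := ne_top_of_lt hrad
    have h1 : volume.real E ≤ volume.real (cthickening (1 / (N:ℝ)) K \ K) :=
      measureReal_mono hsub (ne_top_of_le_ne_top hfin (measure_mono diff_subset))
    rw [measureReal_diff (self_subset_cthickening K) hKm hfin] at h1
    have h2 : volume.real (cthickening (1 / (N:ℝ)) K) ≤ κ + ε := by
      have := ENNReal.toReal_mono (ENNReal.add_ne_top.mpr ⟨hKfin, ENNReal.ofReal_ne_top⟩) hrad.le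
      rwa [ENNReal.toReal_add hKfin ENNReal.ofReal_ne_top, ENNReal.toReal_ofReal hε0.le] at this
    linarith
  -- the block
  obtain ⟨Qn, hQn⟩ := exists_nat_gt (16 * (N:ℝ) / κ)
  obtain ⟨S, hSQ, hs0, hSτ⟩ := hblock (max (max M Q0) (max Qn 1))
  set s := ∑ q ∈ S, ψ q with hs
  have hSq : ∀ q ∈ S, M ≤ q ∧ Q0 ≤ q ∧ Qn ≤ q ∧ 0 < q := by
    intro q hq; have := hSQ q hq; omega
  set A : ℕ → Set ℝ := fun q => Hit q (γ q) (ψ q) with hA
  have hAm : ∀ q, MeasurableSet (A q) := fun q => measurableSet_hit _ _ _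
  set ν := volume.restrict (Ico (0:ℝ) 1) with hν
  have : IsFiniteMeasure ν := ⟨by rw [hν, Measure.restrict_apply_univ]; simp⟩
  have hνr : ∀ B, MeasurableSet B → ν.real B = volume.real (B ∩ Ico 0 1) := fun B hB => by
    rw [hν, measureReal_def, measureReal_def, Measure.restrict_apply hB]
  -- lower bound
  have hlow : ∀ q ∈ S, 2 * ψ q * volume.real U - 4 * (N:ℝ) * ψ q / q ≤ ν.real (A q ∩ E) := by
    intro q hq
    obtain ⟨hM, hQ0, -, hq0⟩ := hSq q hq
    have e : A q ∩ E = A q ∩ U := by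
      ext x
      constructor
      · exact fun h => ⟨h.1, h.2.1⟩
      · exact fun h => ⟨h.1, h.2, fun hxK => hxK.2 q hM h.1⟩
    rw [e, hνr _ ((hAm q).inter hUm), inter_assoc, inter_eq_left.mpr hUI]
    have hd : (J : Set ℕ).PairwiseDisjoint cell := by
      intro i _ j _ hij
      refine Set.disjoint_left.mpr fun x hxi hxj => hij ?_
      have a1 := hxi.1; have a2 := hxi.2; have b1 := hxj.1; have b2 := hxj.2
      rw [div_le_iff₀ hNR] at a1 b1
      rw [lt_div_iff₀ hNR] at a2 b2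
      have c1 : (i:ℝ) < j + 1 := by linarith
      have c2 : (j:ℝ) < i + 1 := by linarith
      have d1 : i < j + 1 := by exact_mod_cast c1
      have d2 : j < i + 1 := by exact_mod_cast c2
      omega
    have h1 : volume.real U = ∑ j ∈ J, volume.real (cell j) :=
      measureReal_biUnion_finset hd (fun j _ => measurableSet_Ico)
        (fun j _ => by simp [hcell, Real.volume_Ico])
    have h2 : volume.real (A q ∩ U) = ∑ j ∈ J, volume.real (A q ∩ cell j) := by
      rw [hU, inter_iUnion₂]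
      exact measureReal_biUnion_finset (hd.mono_on fun j _ => inter_subset_right)
        (fun j _ => (hAm q).inter measurableSet_Ico)
        (fun j _ => ne_top_of_le_ne_top (by simp [hcell, Real.volume_Ico])
          (measure_mono inter_subset_right))
    have h3 : ∀ j, volume.real (cell j) = 1 / N := fun j => by
      rw [hcell, measureReal_def, Real.volume_Ico, ENNReal.toReal_ofReal (by
        rw [← sub_div, add_sub_cancel_left]; positivity)]
      ring
    have hqR : (0:ℝ) < q := by exact_mod_cast hq0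
    have hJN : (J.card : ℝ) ≤ N := by
      exact_mod_cast (Finset.card_filter_le _ _).trans (Finset.card_range N).le
    have h4 : 0 ≤ 4 * ψ q / q := by have := hψ q; positivity
    calc 2 * ψ q * volume.real U - 4 * (N:ℝ) * ψ q / q
        ≤ ∑ j ∈ J, (2 * ψ q * (1 / N) - 4 * ψ q / q) := by
          rw [h1, Finset.sum_congr rfl (fun j _ => h3 j), Finset.sum_sub_distrib, Finset.mul_sum,
            Finset.sum_const, Finset.sum_const, nsmul_eq_mul, nsmul_eq_mul]
          have : (J.card:ℝ) * (4 * ψ q / q) ≤ N * (4 * ψ q / q) := mul_le_mul_of_nonneg_right hJN h4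
          have e2 : 4 * (N:ℝ) * ψ q / q = N * (4 * ψ q / q) := by ring
          linarith
      _ ≤ ∑ j ∈ J, volume.real (A q ∩ cell j) := Finset.sum_le_sum fun j _ => by
          refine le_trans (le_of_eq ?_) (cell_lower hq0 (hψ q) (hhalf q hQ0) ((j:ℝ) / N) (((j:ℝ) + 1) / N))
          ring
      _ = _ := h2.symm
  -- pairs
  have hpairs : ∑ q ∈ S, ∑ r ∈ S, ν.real (A q ∩ A r) ≤ 48 * s ^ 2 := by
    set G : ℕ → ℕ → ℝ := fun q r => if r ≤ q then 8 * (Nat.gcd q r : ℝ) * ψ q / q else 0 with hG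
    have hG0 : ∀ q r, 0 ≤ G q r := fun q r => by
      have := hψ q; simp only [hG]; split_ifs <;> positivity
    have hp : ∀ q ∈ S, ∀ r ∈ S, ν.real (A q ∩ A r) ≤ 32 * ψ q * ψ r + G q r + G r q := by
      intro q hq r hr
      obtain ⟨-, hq1, -, hq0⟩ := hSq q hq
      obtain ⟨-, hr1, -, hr0⟩ := hSq r hr
      rw [hνr _ ((hAm q).inter (hAm r))]
      rcases le_total r q with h | h
      · have h1 := pair_le hq0 hr0 (γ := γ q) (δ := γ r) (hψ q) (hhalf q hq1) (hψ r) (hhalf r hr1)
        have h2 := hG0 r q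
        have h3 : G q r = 8 * (Nat.gcd q r : ℝ) * ψ q / q := if_pos h
        linarith
      · have h1 := pair_le hr0 hq0 (γ := γ r) (δ := γ q) (hψ r) (hhalf r hr1) (hψ q) (hhalf q hq1)
        rw [inter_comm (Hit r _ _)] at h1
        have h2 := hG0 q r
        have h3 : G r q = 8 * (Nat.gcd r q : ℝ) * ψ r / r := if_pos h
        have h4 : 32 * ψ r * ψ q = 32 * ψ q * ψ r := by ring
        linarith
    have hGs : ∀ q ∈ S, ∑ r ∈ S, G q r ≤ 8 * (q.divisors.card : ℝ) * ψ q := by
      intro q hq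
      obtain ⟨-, -, -, hq0⟩ := hSq q hq
      have hqR : (0:ℝ) < q := by exact_mod_cast hq0
      calc ∑ r ∈ S, G q r = ∑ r ∈ S.filter (fun r => r ≤ q), 8 * (Nat.gcd q r : ℝ) * ψ q / q := by
            rw [Finset.sum_filter]
        _ ≤ ∑ r ∈ Finset.Icc 1 q, 8 * (Nat.gcd q r : ℝ) * ψ q / q := by
            refine Finset.sum_le_sum_of_subset_of_nonneg (fun r hr => ?_) (fun r _ _ => by
              have := hψ q; positivity)
            rw [Finset.mem_filter] at hr
            exact Finset.mem_Icc.mpr ⟨(hSq r hr.1).2.2.2, hr.2⟩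
        _ = 8 * ψ q / q * ((∑ r ∈ Finset.Icc 1 q, Nat.gcd q r : ℕ) : ℝ) := by
            rw [Nat.cast_sum, Finset.mul_sum]; exact Finset.sum_congr rfl fun r _ => by ring
        _ ≤ 8 * ψ q / q * ((q.divisors.card * q : ℕ) : ℝ) := by
            refine mul_le_mul_of_nonneg_left (by exact_mod_cast sum_gcd_le q) ?_
            have := hψ q; positivity
        _ = _ := by push_cast; field_simp
    have hG' : ∑ q ∈ S, ∑ r ∈ S, G q r ≤ 8 * s ^ 2 := by
      calc _ ≤ ∑ q ∈ S, 8 * (q.divisors.card : ℝ) * ψ q := Finset.sum_le_sum hGs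
        _ = 8 * ∑ q ∈ S, (q.divisors.card : ℝ) * ψ q := by
            rw [Finset.mul_sum]; exact Finset.sum_congr rfl fun q _ => by ring
        _ ≤ _ := by linarith [hSτ]
    calc _ ≤ ∑ q ∈ S, ∑ r ∈ S, (32 * ψ q * ψ r + G q r + G r q) :=
          Finset.sum_le_sum fun q hq => Finset.sum_le_sum fun r hr => hp q hq r hr
      _ = 32 * s ^ 2 + 2 * ∑ q ∈ S, ∑ r ∈ S, G q r := by
          rw [Finset.sum_congr rfl (fun q _ => Finset.sum_add_distrib), Finset.sum_add_distrib,
            Finset.sum_congr rfl (fun q _ => Finset.sum_add_distrib), Finset.sum_add_distrib,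
            Finset.sum_comm (f := fun q r => G r q), sq, hs, Finset.sum_mul_sum, Finset.mul_sum]
          have : ∀ q ∈ S, ∑ r ∈ S, 32 * ψ q * ψ r = 32 * ∑ r ∈ S, ψ q * ψ r := fun q _ => by
            rw [Finset.mul_sum]; exact Finset.sum_congr rfl fun r _ => by ring
          rw [Finset.sum_congr rfl this]; ring
      _ ≤ _ := by linarith
  -- second moment
  have hup : ∑ q ∈ S, ν.real (A q ∩ E) ≤ lam * s * ε + 48 * s ^ 2 / (lam * s) := by
    have hc : 0 < lam * s := by positivity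
    set c := lam * s with hcdef
    set n : ℝ → ℝ := fun x => ∑ q ∈ S, (A q).indicator (fun _ => (1:ℝ)) x with hn
    have i1 : ∀ B, MeasurableSet B → Integrable (B.indicator fun _ => (1:ℝ)) ν :=
      fun B hB => (integrable_const 1).indicator hB
    have i2 : ∀ B, MeasurableSet B → ∫ x, B.indicator (fun _ => (1:ℝ)) x ∂ν = ν.real B :=
      fun B hB => by rw [integral_indicator_const _ hB, smul_eq_mul, mul_one]
    have hpt : ∀ x, ∑ q ∈ S, (A q ∩ E).indicator (fun _ => (1:ℝ)) x ≤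
        c * E.indicator (fun _ => (1:ℝ)) x +
        (∑ q ∈ S, ∑ r ∈ S, (A q ∩ A r).indicator (fun _ => (1:ℝ)) x) / c := by
      intro x
      have e2 : ∑ q ∈ S, ∑ r ∈ S, (A q ∩ A r).indicator (fun _ => (1:ℝ)) x = n x ^ 2 := by
        rw [sq, hn, Finset.sum_mul_sum]
        refine Finset.sum_congr rfl fun q _ => Finset.sum_congr rfl fun r _ => ?_
        by_cases h1 : x ∈ A q <;> by_cases h2 : x ∈ A r <;> simp [h1, h2]
      rw [e2]
      by_cases hx : x ∈ E
      · have e1 : ∑ q ∈ S, (A q ∩ E).indicator (fun _ => (1:ℝ)) x = n x :=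
          Finset.sum_congr rfl fun q _ => by by_cases h1 : x ∈ A q <;> simp [h1, hx]
        rw [e1, indicator_of_mem hx, mul_one]
        exact pointwise_bound _ _ hc
      · have e1 : ∑ q ∈ S, (A q ∩ E).indicator (fun _ => (1:ℝ)) x = 0 :=
          Finset.sum_eq_zero fun q _ => by simp [hx]
        rw [e1, indicator_of_notMem hx, mul_zero, zero_add]
        positivity
    have hi : Integrable (fun x => ∑ q ∈ S, ∑ r ∈ S, (A q ∩ A r).indicator (fun _ => (1:ℝ)) x) ν :=
      integrable_finset_sum _ fun q _ => integrable_finset_sum _ fun r _ =>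
        i1 _ ((hAm q).inter (hAm r))
    have hint := integral_mono (integrable_finset_sum _ fun q _ => i1 _ ((hAm q).inter hEm))
      (((i1 _ hEm).const_mul c).add (hi.div_const c)) hpt
    rw [integral_finset_sum _ (fun q _ => i1 _ ((hAm q).inter hEm)),
      Finset.sum_congr rfl (fun q _ => i2 _ ((hAm q).inter hEm))] at hint
    refine hint.trans ?_
    simp only [Pi.add_apply]
    rw [integral_add ((i1 _ hEm).const_mul c) (hi.div_const c), integral_const_mul, integral_div,
      i2 _ hEm, integral_finset_sum _ (fun q _ => integrable_finset_sum _ fun r _ =>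
        i1 _ ((hAm q).inter (hAm r)))]
    have e3 : ∀ q ∈ S, ∫ x, ∑ r ∈ S, (A q ∩ A r).indicator (fun _ => (1:ℝ)) x ∂ν
        = ∑ r ∈ S, ν.real (A q ∩ A r) := fun q _ => by
      rw [integral_finset_sum _ (fun r _ => i1 _ ((hAm q).inter (hAm r)))]
      exact Finset.sum_congr rfl fun r _ => i2 _ ((hAm q).inter (hAm r))
    rw [Finset.sum_congr rfl e3]
    have hνE : ν.real E ≤ ε := by
      rw [hνr _ hEm, inter_eq_left.mpr (diff_subset.trans hUI)]; exact hEle
    gcongr
  -- conclusion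
  have hlowsum : (2 * κ - κ / 4) * s ≤ ∑ q ∈ S, ν.real (A q ∩ E) := by
    refine le_trans ?_ (Finset.sum_le_sum hlow)
    rw [hs, Finset.mul_sum]
    refine Finset.sum_le_sum fun q hq => ?_
    obtain ⟨-, -, hQ, hq0⟩ := hSq q hq
    have hqR : (0:ℝ) < q := by exact_mod_cast hq0
    have hQR : (Qn:ℝ) ≤ q := by exact_mod_cast hQ
    have h1 : 4 * (N:ℝ) / q ≤ κ / 4 := by
      rw [div_le_iff₀ hqR]
      rw [div_lt_iff₀ hκ0] at hQn
      nlinarith
    have h2 : 2 * ψ q * κ ≤ 2 * ψ q * volume.real U :=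
      mul_le_mul_of_nonneg_left hUge (by have := hψ q; positivity)
    have h3 : 4 * (N:ℝ) / q * ψ q ≤ κ / 4 * ψ q := mul_le_mul_of_nonneg_right h1 (hψ q)
    have e : 4 * (N:ℝ) * ψ q / q = 4 * (N:ℝ) / q * ψ q := by ring
    linarith
  have e1 : lam * s * ε = κ / 2 * s := by rw [hε]; field_simp
  have e2 : 48 * s ^ 2 / (lam * s) = κ / 2 * s := by rw [hlam]; field_simp; norm_num
  nlinarith [mul_pos hκ0 hs0]

/-- Full measure under divergence weighted by the number of divisors. -/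
theorem full_measure (ψ γ : ℕ → ℝ) (hψ : ∀ q, 0 ≤ ψ q)
    (hdiv : ¬ Summable fun q : ℕ =>
      ψ q / ((q.divisors.card : ℝ) * (1 + Real.log q.divisors.card) ^ 2)) :
    volume {x : ℝ | ¬ {q : ℕ | 0 < q ∧ ∃ a : ℤ, |(q:ℝ) * x - a - γ q| < ψ q}.Infinite} = 0 := by
  classical
  by_cases hbig : {q : ℕ | 1/2 < ψ q}.Infinite
  · refine measure_mono_null (fun x hx => ?_) (measure_empty (μ := volume))
    refine hx ((hbig.diff (finite_singleton 0)).mono fun q hq => ?_)
    have hq0 : q ≠ 0 := by simpa using hq.2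
    exact ⟨Nat.pos_of_ne_zero hq0, round ((q:ℝ) * x - γ q), lt_of_le_of_lt
      (by rw [sub_right_comm]; exact abs_sub_round _) hq.1⟩
  rw [not_infinite] at hbig
  obtain ⟨B, hB⟩ := hbig.bddAbove
  set Q0 := B + 1 with hQ0
  have hhalf : ∀ q, Q0 ≤ q → ψ q ≤ 1/2 := by
    intro q hq; by_contra h; have := hB (not_le.mp h); omega
  have hsub : {x : ℝ | ¬ {q : ℕ | 0 < q ∧ ∃ a : ℤ, |(q:ℝ) * x - a - γ q| < ψ q}.Infinite} ⊆
      ⋃ (m : ℤ), ⋃ (M : ℕ),
        (fun x : ℝ => x + (-(m:ℝ))) ⁻¹' Miss ψ (fun q => γ q - (q:ℝ) * m) M := by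
    intro x hx
    rw [mem_setOf_eq, not_infinite] at hx
    obtain ⟨C, hC⟩ := hx.bddAbove
    refine mem_iUnion₂.mpr ⟨⌊x⌋, C + 1, ?_, fun q hq hhit => ?_⟩
    · constructor <;> linarith [Int.floor_le x, Int.lt_floor_add_one x]
    · obtain ⟨a, ha⟩ := hhit
      have := hC ⟨(show 0 < q by omega), a, (le_of_eq (by congr 1; ring)).trans_lt ha⟩
      omega
  refine measure_mono_null hsub (measure_iUnion_null fun m => measure_iUnion_null fun M => ?_)
  rw [measure_preimage_add_right]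
  exact volume_miss ψ _ hψ Q0 hhalf (exists_block hψ hdiv) M

end Vale.P028
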